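import Vale.Agent.P066.Theta.Top3
import Vale.Agent.P066.Lab.LA
import Vale.Agent.P066.Lab.LSW.W2
import Vale.Agent.P066.Lab.LSW.W4
import Vale.Agent.P066.Lab.H69.W1
import Vale.Agent.P066.Lab.H402.W0

/-!
# Integration test, with the open blocks as arguments
-/

set_option autoImplicit false

open Finset

namespace Vale.Agent.P066.Theta

/-- The Shareshian-Wachs theorem from the word statement `W3`. -/
theorem sw_test (h3 : Lab.LSW.W3)
    {n : ℕ} (h : Fin n → Fin n) (hmono : Monotone h) :
    ∃ c : n.Partition → Polynomial ℤ, (∀ p k, 0 ≤ (c p).coeff k) ∧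
      ∀ c' : n.Partition → Polynomial ℤ,
        (∀ N, chromaticQSF (unitIntervalGraph h) N =
          ∑ p : n.Partition,
            MvPolynomial.C (c' p) * MvPolynomial.esymmPart (Fin N) (Polynomial ℤ) p) ↔
          c' = c :=
  shareshianWachs_of_LA_LS Lab.HN.laout
    (Lab.LSW.w4 Lab.H402.w0 Lab.H69.w1 Lab.LSW.w2a Lab.LSW.w2b h3) h hmono

end Vale.Agent.P066.Theta
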